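import Vale.Agent.P359.Moment.Main
import Vale.Agent.P359.GapForm
import Vale.Agent.P359.Casimir

/-!
P359, Q1: the Laughlin Hamiltonian `H_{N,3(N-1)}` on the sphere has a gap above its ground state
that is uniform in the particle number.
-/

open Matrix

namespace Vale.Agent.Results.P359.LaughlinGap

open Vale.Agent.P359

theorem result :
    (∀ Q : ℕ, 0 < Q → (projMatrix Q)ᵀ = projMatrix Q ∧ projMatrix Q * projMatrix Q = projMatrix Q ∧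
      ∀ ψ : Fin (Q + 1) × Fin (Q + 1) → ℝ,
        projMatrix Q *ᵥ ψ = ψ ↔ totalSpinSq Q *ᵥ ψ = (((Q : ℝ) - 1) * Q) • ψ) ∧
    (∀ N : ℕ, laughlin N ≠ 0 ∧
      ∀ ψ : Occ N (flux N) → ℂ, Fermionic ψ ∧ ham ψ = 0 ↔ ∃ c : ℂ, ψ = c • laughlin N) ∧
    ∃ δ : ℝ, 0 < δ ∧ ∃ N₀ : ℕ, ∀ N : ℕ, N₀ ≤ N → ∀ ψ : Occ N (flux N) → ℂ, Fermionic ψ →
      δ * (nsq ψ - ‖braket (laughlin N) ψ‖ ^ 2 / nsq (laughlin N)) ≤ energy ψ := by
  refine ⟨fun Q hQ => ⟨projMatrix_transpose Q, projMatrix_mul_self Q,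
    projMatrix_mulVec_eq_self_iff hQ⟩, fun N => ⟨laughlin_ne_zero N, kernel_eq N⟩, ?_⟩
  obtain ⟨δ, hδ, N₀, h⟩ := Moment.gapConjecture
  exact ⟨δ, hδ, N₀, fun N hN ψ hψ => gap_operator_form (h N hN) ψ hψ⟩

end Vale.Agent.Results.P359.LaughlinGap
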